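import Vale.Agent.P092.H796.Wd6
import Vale.Agent.P092.H541.Wd.W5
import Vale.Agent.P092.H541.CL.KC

/-!
P092, TEAM P, stage CL-O, Witt index at least 3 (helper541): the end of a straight leg for a group
`S` with a homomorphism `φ : S →* FormGroup σ J`, forms of every kind: **all calculi commute**
(`com_allS`), from the calculi of the singular subspaces (`GDatS`, `CalP`, `Cen`), the commutation
of collinear points and the unboundedness of the stabilisers of the opposite pairs (`Unb`).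
-/

set_option linter.all false

open scoped InnerProductSpace ENNReal
open Filter Topology ContinuousLinearMap MeasureTheory TopologicalSpace Set Module

namespace Vale.Agent.P092.H541.O

open Vale.Agent.P092.H303 (FormGroup)
open Vale.Agent.P092.H714.Cl
open Vale.Agent.P092.H370.Po
open Vale.Agent.P092.H370.Fo (Fo Wf)
open Vale.Agent.P092.RC (Cm Moore PicX)
open Vale.Agent.P092.H232 (Nin)
open Vale.Agent.P092.H437.P2 (CalP Key0)
open Vale.Agent.P092.H796 (PolH ZP ZT MoP moP_of zp_of zt_of Ind ind_smul)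
open Vale.Agent.P092.CL (Lt Geo PB LegS LegComm act)
open Vale.Agent.P092.H541.CLF (GDatS Cnt0S Fix0S key0_of_cntS pts_commSF)
open Vale.Agent.P092.H541.Wd (all_commF)

section gen

variable {n : Type} [Fintype n] [DecidableEq n] {k : Type} [NontriviallyNormedField k]
  [ProperSpace k] {σ : k →+* k} [Fact (Continuous σ)] {ε : k} {J : Matrix n n k}
  {S : Type} [Group S] {φ : S →* FormGroup σ J}
  {E Γ K : Type} [Group E] [TopologicalSpace E] [Group Γ] [NormedAddCommGroup K]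
  [InnerProductSpace ℂ K] [CompleteSpace K] {ι : S →* E} {π : E →* (K →L[ℂ] K)}
  {lam : Γ →* (K →L[ℂ] K)} {W : Set (K →L[ℂ] K)} {Ω : K} {q : Γ → S} {r : ℕ}
  {G : ∀ j, SGr σ J j → (C(SGr σ J j, ℂ) →⋆ₐ[ℂ] (K →L[ℂ] K))}

/-- an operator which commutes with the points of `X` commutes with `X` -/
def Cen (r : ℕ) (G : ∀ j, SGr σ J j → (C(SGr σ J j, ℂ) →⋆ₐ[ℂ] (K →L[ℂ] K))) : Prop :=
  ∀ j, 1 ≤ j → j ≤ r → ∀ (X : SGr σ J j) (T : K →L[ℂ] K),
    (∀ (x : SGr σ J 1) f, Inc x X → T * G 1 x f = G 1 x f * T) →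
      ∀ f, T * G j X f = G j X f * T

/-- the stabilisers of the opposite pairs of points which fix their common orthogonal are
unbounded -/
def Unb (φ : S →* FormGroup σ J) (nm : S → ℝ) : Prop :=
  ∀ a a' : SGr σ J 1, ¬ Col a a' → ∀ C : ℝ, ∃ g : S, φ g • a = a ∧ φ g • a' = a' ∧
    (∀ p : SGr σ J 1, Col p a → Col p a' → φ g • p = p) ∧ C ≤ nm g

/-- the input of `all_commF` -/
theorem polH_of (hP : CalP r (fun i j => Inc (σ := σ) (J := J) (i := i) (j := j)) G)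
    (hcen : Cen r G) (hpts : ∀ a b : SGr σ J 1, Col a b → ∀ f g, Commute (G 1 a f) (G 1 b g)) :
    PolH r G where
  flg j h1 h2 B N h := ⟨fun u g => hP.com j (j + 1) h1 (Nat.le_succ j) h2 B N h u g,
    fun u g hn => hP.inc j (j + 1) h1 (Nat.le_succ j) h2 B N h u g hn⟩
  col j h1 h2 B B' N hne hB hB' := by
    refine ⟨fun u v => ?_, fun ξ h => hP.agr j h1 h2 B B' hne ⟨N, hB, hB'⟩ ξ h⟩
    have s1 : ∀ (x : SGr σ J 1) f, Inc x B → G j B' v * G 1 x f = G 1 x f * G j B' v := by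
      intro x f hx
      refine (hcen j h1 (by omega) B' (G 1 x f) (fun y g hy => ?_) v).symm
      exact (hpts x y (fun a ha b hb => N.sing a (hB (hx ha)) b (hB' (hy hb))) f g).eq
    exact (hcen j h1 (by omega) B (G j B' v) s1 u).symm
  top B B' hne hA ξ h := hP.agrM B B' hne hA ξ h

theorem bas_of_picX (h : PicX π lam W Ω) : H631.P0.Bas π lam W where
  adjP := h.adjP
  adjL := h.adjL
  Wadj := h.Wadj
  erg := h.erg
  inv := h.inv

theorem ts_act {Y : Type} [TopologicalSpace Y] [MulAction S Y] [ContinuousConstSMul S Y] {g : S}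
    {f : C(Y, ℂ)} {x : Y} (h : x ∈ tsupport ⇑(act g f)) : g⁻¹ • x ∈ tsupport ⇑f := by
  have hc : IsClosed ((fun y : Y => g⁻¹ • y) ⁻¹' tsupport ⇑f) :=
    (isClosed_tsupport _).preimage (continuous_const_smul g⁻¹)
  refine closure_minimal (fun y hy => ?_) hc h
  exact subset_tsupport _ (show f (g⁻¹ • y) ≠ 0 from hy)

/-- **All calculi of a straight leg commute.** -/
theorem com_allS (hF : Fo σ ε J) (hW : WI σ J r) (hr : 2 ≤ r) (pic : PicX π lam W Ω)
    {nm : S → ℝ} (moore : ∀ T : Set S, (∀ C : ℝ, ∃ g ∈ T, C ≤ nm g) → Moore (ι '' T))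
    (unb : Unb φ nm) (gd : GDatS φ ι π lam W q r G)
    (hP : CalP r (fun i j => Inc (σ := σ) (J := J) (i := i) (j := j)) G) (hcen : Cen r G)
    (hpts : ∀ a b : SGr σ J 1, Col a b → ∀ f g, Commute (G 1 a f) (G 1 b g)) :
    ∀ i j, 1 ≤ i → i ≤ r → 1 ≤ j → j ≤ r → ∀ (X : SGr σ J i) (X' : SGr σ J j) f f',
      Commute (G i X f) (G j X' f') := by
  have hb := bas_of_picX pic
  letI : MulAction S (SGr σ J 1) := MulAction.compHom (SGr σ J 1) φ
  have hmo : MoP π (G 1) := moP_of (S₀ := S) (ι := ι) (nm := nm) moore unb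
    (fun g v f => gd.pcov 1 le_rfl (by omega) g v f)
  have hcm : ∀ (v : SGr σ J 1) f, Cm W (G 1 v f) := fun v f => gd.cm 1 le_rfl (by omega) v f
  have hcov : ∀ γ (v : SGr σ J 1) f, lam γ * G 1 v f * lam γ⁻¹ = G 1 v (act (φ (q γ)) f) :=
    fun γ v f => gd.cov 1 le_rfl (by omega) γ v f
  have hg : ∀ γ (f : C(SGr σ J 1, ℂ)) x, x ∈ tsupport ⇑(act (φ (q γ)) f) →
      (φ (q γ))⁻¹ • x ∈ tsupport ⇑f := fun γ f x h => ts_act h
  have zp : ZP (G 1) := zp_of hb hcm (fun γ f => act (φ (q γ)) f) hcov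
    (fun γ x => (φ (q γ))⁻¹ • x) hg (fun γ x y h => (col_smul _).2 h) hmo
  have zt : ZT (G 1) := zt_of hb hcm (fun γ f => act (φ (q γ)) f) hcov
    (fun γ x => (φ (q γ))⁻¹ • x) hg (fun γ m z h => (ind_smul _).1 h) hmo
  exact all_commF hF hW hF hW hr le_rfl (polH_of hP hcen hpts) zp zt

end gen

section leg

variable {n : Type} [Fintype n] [DecidableEq n] {k : Type} [NontriviallyNormedField k]
  [ProperSpace k] [IsUltrametricDist k] {σ : k →+* k} [Fact (Continuous σ)] {ε : k}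
  {J : Matrix n n k} {N : ℕ}
  {S V₁ V₂ : Type} [MeasurableSpace V₁] [MeasurableSpace V₂] [Group S] [TopologicalSpace S]
  [NormedAddCommGroup V₁] [NormedAddCommGroup V₂] [ProperSpace V₁] [BorelSpace V₁]
  [MulAction S (SGr σ J 1)] [ContinuousConstSMul S (SGr σ J 1)]
  {φ : S →* FormGroup σ J}
  {E Γ K : Type} [Group E] [TopologicalSpace E] [Group Γ] [NormedAddCommGroup K]
  [InnerProductSpace ℂ K] [CompleteSpace K] {𝒰 : Ultrafilter ℕ} {ι : S →* E}
  {π : E →* (K →L[ℂ] K)} {lam : Γ →* (K →L[ℂ] K)} {W : Set (K →L[ℂ] K)} {Ω : K}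
  {m : Set Γ → (K →L[ℂ] K)} {q : Γ → S}

section pts

variable {M : Type} [TopologicalSpace M] [CompactSpace M] [MulAction S M]
  [ContinuousConstSMul S M] {G : ∀ j, SGr σ J j → (C(SGr σ J j, ℂ) →⋆ₐ[ℂ] (K →L[ℂ] K))}

/-- **collinear points commute**, Witt index `N + 1 ≥ 3` -/
theorem pts_comm_clS (hF : Fo σ ε J) (hN : 2 ≤ N) (hW : WI σ J (N + 1))
    {L : Lt S (SGr σ J 1) M V₁ V₂} [IsFiniteMeasureOnCompacts L.μ₁] [L.μ₁.IsOpenPosMeasure]
    (geo : Geo L) (base : PB L 𝒰 ι π lam W Ω m q) (gd : GDatS φ ι π lam W q (N + 1) G)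
    (hP : CalP (N + 1) (fun i j => Inc (σ := σ) (J := J) (i := i) (j := j)) G)
    (hdom : ∀ (g : S) (u : C(SGr σ J 1, ℂ)) (A : Set (SGr σ J 1)), IsOpen A →
      tsupport u ⊆ A → ∀ ζ : K, ∀ ε > 0, ∃ R : ℝ, ∀ T > 0, ∀ᶠ t : ℕ in (𝒰 : Filter ℕ),
      ‖G 1 (g • L.p0) u ζ‖ ≤ ‖u‖ * ‖m (L.na1 q R T A) (π (ι (g * L.b1 ^ t * g⁻¹))⁻¹ ζ)‖ + ε)
    (fix : Fix0S (N + 1) φ L) (cnt : Cnt0S φ L q K) (a b : SGr σ J 1) (hab : Col a b) (f g) :
    Commute (G 1 a f) (G 1 b g) := by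
  obtain ⟨Y, hY, hd⟩ := hW.1
  exact pts_commSF hF hW hF hN (SGr.mk' Y hY hd) hP
    (key0_of_cntS (by omega) geo base gd hP hdom fix cnt) a b hab f g

end pts

variable [MulAction S (SGr σ J (N + 1))] [ContinuousConstSMul S (SGr σ J (N + 1))]
  {G : ∀ j, SGr σ J j → (C(SGr σ J j, ℂ) →⋆ₐ[ℂ] (K →L[ℂ] K))}

/-- **a straight leg of Witt index `N + 1 ≥ 3` is commutative** -/
theorem legComm_S (hF : Fo σ ε J) (hN : 2 ≤ N) (hW : WI σ J (N + 1))
    {L : Lt S (SGr σ J 1) (SGr σ J (N + 1)) V₁ V₂} [IsFiniteMeasureOnCompacts L.μ₁]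
    [L.μ₁.IsOpenPosMeasure] (geo : Geo L)
    (leg : LegS L 𝒰 ι π lam W Ω m q (G 1) (G (N + 1))) (gd : GDatS φ ι π lam W q (N + 1) G)
    (hP : CalP (N + 1) (fun i j => Inc (σ := σ) (J := J) (i := i) (j := j)) G)
    (hcen : Cen (N + 1) G) (unb : Unb φ L.nm) (fix : Fix0S (N + 1) φ L) (cnt : Cnt0S φ L q K) :
    LegComm L 𝒰 ι π lam W Ω m q (G 1) (G (N + 1)) := by
  have hpts : ∀ a b : SGr σ J 1, Col a b → ∀ f g, Commute (G 1 a f) (G 1 b g) :=
    fun a b hab f g => pts_comm_clS hF hN hW geo leg.base gd hP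
      (fun g u A hA hu ζ ε' hε => leg.e.dom g u A hA hu ζ ε' hε) fix cnt a b hab f g
  have hall := com_allS hF hW (by omega) leg.base.pic leg.base.adm.moore unb gd hP hcen hpts
  exact ⟨leg, ⟨fun c c' f g => hall 1 1 le_rfl (by omega) le_rfl (by omega) c c' f g,
    fun l l' f g => hall (N + 1) (N + 1) (by omega) le_rfl (by omega) le_rfl l l' f g,
    fun c l f g => hall 1 (N + 1) le_rfl (by omega) (by omega) le_rfl c l f g⟩⟩

end leg

end Vale.Agent.P092.H541.O
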