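import Vale.Agent.P092.H796.Wd7
import Vale.Agent.P092.H416.CnO
import Vale.Agent.P092.H541.CL.KD
import Vale.Agent.P092.H541.O.Leg

/-!
P092, TEAM P, stage CL-O, Witt index at least 3 (helper541): the end of a straight leg for the
letters `ltO` (orthogonal groups): all calculi commute.
-/

set_option linter.all false

open scoped InnerProductSpace ENNReal
open Filter Topology MeasureTheory TopologicalSpace Matrix

namespace Vale.Agent.P092.H541.O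

open Vale.Agent.P092.H303 (FormGroup Idx hyp)
open Vale.Agent.P092.H714.Cl
open Vale.Agent.P092.H370.Po (SGr Inc Col WI)
open Vale.Agent.P092.H370.Fo (Fo Wf EU)
open Vale.Agent.P092.H437.P2 (CalP)
open Vale.Agent.P092.CL (Lt Geo PB LegS LegComm act EUF OF ltO)
open Vale.Agent.P092.H541.CLF (GDatS fix0_ltO wfO)
open Vale.Agent.P092.H416.CnO (cnt0S_ltO)

variable {k : Type} [NontriviallyNormedField k] [ProperSpace k] [MeasurableSpace k]
  {ι₀ : Type} [Fintype ι₀] [DecidableEq ι₀] {s : ℕ} {J₀ : Matrix ι₀ ι₀ k} {a : k}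

/-- the stabilisers of the opposite pairs are unbounded -/
theorem unb_ltO (h : OF J₀) (ha : a ≠ 0) (μ₁ : Measure k) (μ₂ : Measure (ι₀ → k))
    (hG : Geo (ltO h s ha μ₁ μ₂)) :
    Unb (Subgroup.subtype (EUF (RingHom.id k) 1 (hyp (s + 2) 1 J₀)))
      (ltO h s ha μ₁ μ₂).nm := by
  intro x x' hxx C
  exact H796.unb_gen (Subgroup.subtype (EUF (RingHom.id k) 1 (hyp (s + 2) 1 J₀)))
    (fun g hg => ⟨⟨g, hg⟩, rfl⟩) (fun g x => rfl) (wfO h s).fo one_ne_zero (pow_ne_zero 2 ha) rfl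
    hG.nm_pos hG.nm_mul (b := (ltO h s ha μ₁ μ₂).b1) rfl hG.nm_b1 x x' hxx C

variable [BorelSpace k] [IsUltrametricDist k]
  {E Γ K : Type} [Group E] [TopologicalSpace E] [Group Γ] [NormedAddCommGroup K]
  [InnerProductSpace ℂ K] [CompleteSpace K] {𝒰 : Ultrafilter ℕ}
  {ι : EUF (RingHom.id k) 1 (hyp (s + 2) 1 J₀) →* E} {π : E →* (K →L[ℂ] K)}
  {lam : Γ →* (K →L[ℂ] K)} {W : Set (K →L[ℂ] K)} {Ω : K} {m : Set Γ → (K →L[ℂ] K)}
  {q : Γ → EUF (RingHom.id k) 1 (hyp (s + 2) 1 J₀)}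
  {G : ∀ j, SGr (RingHom.id k) (hyp (s + 2) 1 J₀) j →
    (C(SGr (RingHom.id k) (hyp (s + 2) 1 J₀) j, ℂ) →⋆ₐ[ℂ] (K →L[ℂ] K))}

/-- **a straight leg of the letters `ltO`, Witt index `s + 2 ≥ 3`, is commutative** -/
theorem legComm_ltO (h : OF J₀) (hs : 1 ≤ s) (ha : a ≠ 0) (μ₁ : Measure k)
    (μ₂ : Measure (ι₀ → k)) [IsFiniteMeasureOnCompacts μ₁] [μ₁.IsOpenPosMeasure]
    (hG : Geo (ltO h s ha μ₁ μ₂))
    (leg : LegS (ltO h s ha μ₁ μ₂) 𝒰 ι π lam W Ω m q (G 1) (G (s + 2)))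
    (gd : GDatS (Subgroup.subtype _) ι π lam W q (s + 2) G)
    (hP : CalP (s + 2) (fun i j => Inc (σ := RingHom.id k) (J := hyp (s + 2) 1 J₀) (i := i)
      (j := j)) G) (hcen : Cen (s + 2) G) :
    LegComm (ltO h s ha μ₁ μ₂) 𝒰 ι π lam W Ω m q (G 1) (G (s + 2)) := by
  haveI : IsFiniteMeasureOnCompacts (ltO h s ha μ₁ μ₂).μ₁ :=
    inferInstanceAs (IsFiniteMeasureOnCompacts μ₁)
  haveI : (ltO h s ha μ₁ μ₂).μ₁.IsOpenPosMeasure := inferInstanceAs (μ₁.IsOpenPosMeasure)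
  exact legComm_S (N := s + 1) (φ := Subgroup.subtype _) (L := ltO h s ha μ₁ μ₂) (wfO h s).fo
    (by omega) (wfO h s).wi hG leg gd hP hcen (unb_ltO h ha μ₁ μ₂ hG) (fix0_ltO h s ha μ₁ μ₂)
    (cnt0S_ltO h ha μ₁ μ₂ leg.base.ud)

end Vale.Agent.P092.H541.O
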