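import Vale.Agent.P092.H702.SG1
import Vale.Agent.P092.H370.Fo5

/-!
P092, Team P, stage CL-O, Witt index at least 3 (helper541): port of helper702's SG1 (geometry of
the source) to the forms of every kind (`Fo` of helper370), for every group which acts through the
isometry group and contains the group `EU` of the Eichler elements.
-/

set_option linter.all false

open Module Set
open scoped Matrix

namespace Vale.Agent.P092.H541.O

open Vale.Agent.P092.H303 (FormGroup)
open Vale.Agent.P092.H100.Gr (Gr)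
open Vale.Agent.P092.H370.Po hiding sing_sup_span exists_prod exists_inc_ge exists_above
  exists_extend exists_iso_prod trans_SGr con con2 trans_flag trans_pair_col
open Vale.Agent.P092.H370.Fo (Fo Wf EU ort_symm sing_sup_span exists_prod exists_inc_ge
  exists_above le_finrank_perp exists_extend exists_iso_prod trans_SGr con con2 trans_flag
  trans_pair_col)
open Vale.Agent.P092.H714.Cl
open Vale.Agent.P092.H702.SG (SS RS finrank_inf_of_le)

variable {n : Type} [Fintype n] [DecidableEq n] {k : Type} [Field k]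
  {σ : k →+* k} {ε : k} {J : Matrix n n k} {i j l : ℕ}

/-- **transitivity on the pairs of different `d`-spaces inside a common `(d+1)`-space** -/
theorem trans_pair_inF (hF : Fo σ ε J) {d : ℕ} {P Y P' Y' : SGr σ J d} (hne : P ≠ Y)
    (hne' : P' ≠ Y') (h : ∃ X : SGr σ J (d + 1), Inc P X ∧ Inc Y X)
    (h' : ∃ X : SGr σ J (d + 1), Inc P' X ∧ Inc Y' X) :
    ∃ g : FormGroup σ J, g.1 ∈ EU σ ε J ∧ g • P = P' ∧ g • Y = Y' := by
  cases d with
  | zero =>
    exact absurd (SGr.ext (by
      rw [Submodule.finrank_eq_zero.1 P.dim, Submodule.finrank_eq_zero.1 Y.dim])) hne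
  | succ d =>
    have key : ∀ {A B : SGr σ J (d + 1)}, A ≠ B →
        (∃ X : SGr σ J (d + 1 + 1), Inc A X ∧ Inc B X) →
        (∃ X : SGr σ J d, Inc X A ∧ Inc X B) ∧ Col A B := by
      intro A B hAB ⟨X, hA, hB⟩
      refine ⟨⟨SGr.mk' (A.S ⊓ B.S) (A.sing.mono inf_le_left)
        (finrank_inf_of_le A.dim B.dim X.dim hA hB (fun e => hAB (SGr.ext e))), inf_le_left,
        inf_le_right⟩, fun x hx y hy => X.sing x (hA hx) y (hB hy)⟩
    obtain ⟨h1, h2⟩ := key hne h
    obtain ⟨h3, h4⟩ := key hne' h'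
    exact trans_pair_col hF hne hne' h1 h3 h2 h4

/-! ### `SGeo` -/

/-- **[P2-SG]**, any group acting through the isometry group, with range containing the
transvection group -/
theorem sgeoSF' (hF : Fo σ ε J) {r : ℕ} (hW : WI σ J r) (H : Type) [Group H]
    [∀ e, MulAction H (SS σ J r e)] (φ : H →* FormGroup σ J)
    (hφ : ∀ (h : H) (e : ℕ) (X : SS σ J r e), h • X = φ h • X)
    (hGT : ∀ g : FormGroup σ J, g.1 ∈ EU σ ε J → ∃ h, φ h = g) :
    H618.SGeo r (SS σ J r) (RS (σ := σ) (J := J)) H where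
  refl i X X' := ⟨fun h => (SGr.eq_of_le (σ := σ) (J := J) (j := r + 1 - i) h).symm,
    fun h => by subst h; exact Inc.refl (σ := σ) (J := J) (j := r + 1 - i) X⟩
  trans i j l X Y Z h h' := Inc.trans (σ := σ) (J := J) (i := r + 1 - l) (j := r + 1 - j)
    (l := r + 1 - i) h' h
  pnt := by
    intro j hj hjr X
    obtain ⟨⟨Y, hY, hd⟩, hr⟩ := hW
    exact exists_inc_ge hF (i := r + 1 - j) (l := r + 1 - 1) (j := r) (by omega) (by omega)
      (show SGr σ J (r + 1 - j) from X) (SGr.mk' Y hY hd)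
  hyp := by
    intro j hj hjr X
    exact exists_inc_le (i := r + 1 - r) (j := r + 1 - j) (by omega)
      (show SGr σ J (r + 1 - j) from X)
  act := by
    intro g i j X X' h
    rw [hφ, hφ]
    exact (inc_smul (σ := σ) (J := J) (i := r + 1 - j) (j := r + 1 - i) (φ g)).2 h
  tra := by
    intro j _ _ X X'
    obtain ⟨g, hg, h1, -⟩ := trans_SGr (σ := σ) (J := J) (j := r + 1 - j) hF X X'
    obtain ⟨h, hh⟩ := hGT g hg
    exact ⟨h, by rw [hφ, hh]; exact h1⟩
  con := by
    intro j hj hjr X X'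
    obtain ⟨d, hd⟩ : ∃ d, r + 1 - (j + 1) = d := ⟨_, rfl⟩
    have hd' : r + 1 - j = d + 1 := by omega
    have key : ∀ (m m' : ℕ) (hm : m = d) (hm' : m' = d + 1) (X X' : SGr σ J m'),
        Relation.ReflTransGen (fun A B : SGr σ J m' => ∃ Z : SGr σ J m, Inc Z A ∧ Inc Z B)
          X X' := by
      intro m m' hm hm'
      subst hm hm'
      exact fun X X' => con2 hF X X'
    exact key (r + 1 - (j + 1)) (r + 1 - j) hd hd' X X'
  con2 := by
    intro j hj hjr P P'
    obtain ⟨d, hd⟩ : ∃ d, r + 1 - (j + 1) = d := ⟨_, rfl⟩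
    have hd' : r + 1 - j = d + 1 := by omega
    obtain ⟨⟨Y, hY, hdY⟩, hr⟩ := hW
    have key : ∀ (m m' : ℕ) (hm : m = d) (hm' : m' = d + 1) (X X' : SGr σ J m),
        Relation.ReflTransGen (fun A B : SGr σ J m => ∃ Z : SGr σ J m', Inc A Z ∧ Inc B Z)
          X X' := by
      intro m m' hm hm'
      subst hm hm'
      obtain ⟨Z, -⟩ := exists_inc_le (i := m + 1) (j := r) (by omega) (SGr.mk' Y hY hdY)
      exact fun X X' => con hF Z X X'
    exact key (r + 1 - (j + 1)) (r + 1 - j) hd hd' P P'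
  tra2 := by
    intro j hj hjr P Y P' Y' hne hne' h h'
    have hd' : r + 1 - j = (r + 1 - (j + 1)) + 1 := by omega
    have key : ∀ (m m' : ℕ) (hm : m' = m + 1) (P Y P' Y' : SGr σ J m), P ≠ Y → P' ≠ Y' →
        (∃ X : SGr σ J m', Inc P X ∧ Inc Y X) → (∃ X : SGr σ J m', Inc P' X ∧ Inc Y' X) →
        ∃ g : FormGroup σ J, g.1 ∈ EU σ ε J ∧ g • P = P' ∧ g • Y = Y' := by
      intro m m' hm
      subst hm
      exact fun P Y P' Y' h1 h2 h3 h4 => trans_pair_inF hF h1 h2 h3 h4
    obtain ⟨g, hg, h1, h2⟩ := key (r + 1 - (j + 1)) (r + 1 - j) hd' P Y P' Y' hne hne' h h'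
    obtain ⟨x, hx⟩ := hGT g hg
    exact ⟨x, by rw [hφ, hx]; exact h1, by rw [hφ, hx]; exact h2⟩

end Vale.Agent.P092.H541.O
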