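import Vale.Agent.P092.H702.TG2
import Vale.Agent.P092.H702.PG
import Vale.Agent.P092.H541.O.SG

/-!
P092, Team P, stage CL-O, Witt index at least 3 (helper541): port of helper702's TG2 and PG
(geometry of the target) to the forms of every kind (`Fo` of helper370).
-/

set_option linter.all false

open TopologicalSpace Topology Module Set Filter
open scoped Matrix

namespace Vale.Agent.P092.H541.O

open Vale.Agent.P092.H303 (FormGroup isClosed_formGroup locallyCompact_formGroup
  secondCountable_formGroup)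
open Vale.Agent.P092.H100.Gr
open Vale.Agent.P092.H370.Po hiding sing_sup_span exists_prod exists_inc_ge exists_above
  exists_extend exists_iso_prod trans_SGr con con2 trans_flag trans_pair_col
open Vale.Agent.P092.H370.Fo (Fo Wf EU ort_symm sing_sup_span exists_prod exists_inc_ge
  exists_above le_finrank_perp exists_extend exists_iso_prod trans_SGr con con2 trans_flag
  trans_pair_col)
open Vale.Agent.P092.H714.Cl
open Vale.Agent.P092.H702.TG (YS IS CS CS_closed CS_of_IS)

variable {n : Type} [Fintype n] [DecidableEq n] {k : Type} [NontriviallyNormedField k]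
  {σ : k →+* k} {ε : k} {J : Matrix n n k} {i j l : ℕ}

/-- a set of pairwise orthogonal singular subspaces lies in a singular subspace of dimension
`r`, if there is one -/
theorem cliqueF (hF : Fo σ ε J) {r : ℕ} (Y : SGr σ J r) (hr : ∀ Z, Sing σ J Z → finrank k Z ≤ r)
    (C : Set (SGr σ J i)) (hC : ∀ x ∈ C, ∀ y ∈ C, Col x y) :
    ∃ L : SGr σ J r, ∀ x ∈ C, Inc x L := by
  set U : Submodule k (n → k) := ⨆ x ∈ C, x.S with hU
  have h1 : ∀ Z : Submodule k (n → k), (∀ x ∈ C, Ort σ J x.S Z) → Ort σ J U Z := by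
    intro Z hZ u hu z hz
    have h2 : U ≤ (perp σ J Z) := by
      rw [hU]
      refine iSup₂_le fun x hx => ?_
      intro v hv z' hz'
      exact hF.fm.symm0 (hZ x hx v hv z' hz')
    exact hF.fm.symm0 (h2 hu z hz)
  have hsing : Sing σ J U := by
    refine h1 U fun x hx => ?_
    refine ort_symm hF (h1 x.S fun y hy => hC y hy x hx)
  obtain ⟨Z, hZ1, hZ2, hZ3⟩ := exists_above hF hsing Y.sing (hr U hsing) Y.dim.ge
  refine ⟨SGr.mk' Z hZ2 hZ3, fun x hx => ?_⟩
  exact (le_iSup₂_of_le x hx le_rfl : x.S ≤ U).trans hZ1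

/-! ### Openness -/

/-- the orbit map is open -/
theorem orbit_openF [ProperSpace k] (hσ : Continuous σ) (hF : Fo σ ε J) (X : SGr σ J j) :
    IsOpenMap fun g : FormGroup σ J => g • X := by
  haveI := Fact.mk hσ
  haveI : LocallyCompactSpace (FormGroup σ J) := locallyCompact_formGroup hσ J
  haveI : SecondCountableTopology (FormGroup σ J) := secondCountable_formGroup J
  haveI : MulAction.IsPretransitive (FormGroup σ J) (SGr σ J j) := ⟨fun X Y => by
    obtain ⟨g, -, hg, -⟩ := trans_SGr hF X Y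
    exact ⟨g, hg⟩⟩
  exact isOpenMap_smul_of_sigmaCompact X

/-- **openness**: every neighbourhood of `(L, y)`, `y ≤ L`, contains incident pairs `(L', y')` for
all `y'` near `y` -/
theorem near_incF [ProperSpace k] (hσ : Continuous σ) (hF : Fo σ ε J) {y : SGr σ J i}
    {L : SGr σ J j} (h : Inc y L) {U : Set (SGr σ J j)} (hU : U ∈ 𝓝 L) :
    ∀ᶠ y' in 𝓝 y, ∃ L' ∈ U, Inc y' L' := by
  have h1 : (fun g : FormGroup σ J => g • L) ⁻¹' U ∈ 𝓝 (1 : FormGroup σ J) := by
    refine (continuous_id.smul continuous_const).continuousAt.preimage_mem_nhds ?_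
    change U ∈ 𝓝 ((1 : FormGroup σ J) • L)
    rw [one_smul]
    exact hU
  have h2 := (orbit_openF hσ hF y).image_mem_nhds h1
  rw [one_smul] at h2
  filter_upwards [h2] with y' hy'
  obtain ⟨g, hg, rfl⟩ := hy'
  exact ⟨g • L, hg, (inc_smul g).2 h⟩

/-- the image on the points of an open set of incident pairs is open -/
theorem open_incF [ProperSpace k] (hσ : Continuous σ) (hF : Fo σ ε J)
    {W : Set (SGr σ J i × SGr σ J j)} (hW : IsOpen W) :
    IsOpen {y : SGr σ J i | ∃ L : SGr σ J j, (y, L) ∈ W ∧ Inc y L} := by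
  rw [isOpen_iff_mem_nhds]
  rintro y ⟨L, hL, hi⟩
  have h1 : (fun g : FormGroup σ J => (g • y, g • L)) ⁻¹' W ∈ 𝓝 (1 : FormGroup σ J) := by
    have hc : Continuous fun g : FormGroup σ J => (g • y, g • L) :=
      (continuous_id.smul continuous_const).prodMk (continuous_id.smul continuous_const)
    refine hc.continuousAt.preimage_mem_nhds ?_
    rw [one_smul, one_smul]
    exact hW.mem_nhds hL
  have h2 := (orbit_openF hσ hF y).image_mem_nhds h1
  rw [one_smul] at h2
  filter_upwards [h2] with y' hy'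
  obtain ⟨g, hg, rfl⟩ := hy'
  exact ⟨g • L, hg, (inc_smul g).2 hi⟩

section tgeo

variable [ProperSpace k]

theorem CS_symmF (hF : Fo σ ε J) {r i j : ℕ} {L : YS σ J r i} {L' : YS σ J r j}
    (h : CS (σ := σ) (J := J) i j L L') : CS (σ := σ) (J := J) j i L' L := ort_symm hF h

theorem cliqueSF (hF : Fo σ ε J) {r : ℕ} (hW : WI σ J r) (C : Set (YS σ J r r))
    (hC : ∀ x ∈ C, ∀ y ∈ C, CS (σ := σ) (J := J) r r x y) :
    ∃ L : YS σ J r 1, ∀ x ∈ C, IS (σ := σ) (J := J) 1 r L x := by
  obtain ⟨⟨Y, hY, hd⟩, hr⟩ := hW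
  exact cliqueF (σ := σ) (J := J) (i := r + 1 - r) hF (SGr.mk' Y hY hd) hr C hC

theorem openSF [Fact (Continuous σ)] (hF : Fo σ ε J) (r i j : ℕ)
    {W : Set (YS σ J r i × YS σ J r j)} (hW : IsOpen W) :
    IsOpen {y : YS σ J r j | ∃ L : YS σ J r i, (L, y) ∈ W ∧ IS (σ := σ) (J := J) i j L y} := by
  have h := open_incF (σ := σ) (J := J) (i := r + 1 - j) (j := r + 1 - i) Fact.out hF
    (W := (fun q : SGr σ J (r + 1 - j) × SGr σ J (r + 1 - i) => (q.2, q.1)) ⁻¹' W)
    (hW.preimage (continuous_snd.prodMk continuous_fst))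
  exact h

theorem nearSF [Fact (Continuous σ)] (hF : Fo σ ε J) {r i j : ℕ} {L : YS σ J r i}
    {y : YS σ J r j} (h : IS (σ := σ) (J := J) i j L y) {U : Set (YS σ J r i)} (hU : U ∈ 𝓝 L) :
    ∀ᶠ y' in 𝓝 y, ∃ L' ∈ U, IS (σ := σ) (J := J) i j L' y' :=
  near_incF (σ := σ) (J := J) (i := r + 1 - j) (j := r + 1 - i) Fact.out hF h hU

/-- the field `pgeo` of `PkData` -/
theorem pgeoSF [Fact (Continuous σ)] (hF : Fo σ ε J) {r : ℕ} (hW : WI σ J r) :
    H766.P2.PGeo r (YS σ J r) (IS (σ := σ) (J := J)) (CS (σ := σ) (J := J) r r) where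
  cl := CS_closed r r r
  clq C _ hC := cliqueSF hF hW C hC
  opn L U hU y h := nearSF hF h hU

end tgeo

end Vale.Agent.P092.H541.O
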